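import Vale.Agent.P251CE.Euc
import Vale.Agent.P251CI.Q
import Vale.Agent.P251.St.ToLC

/-!
# Bimorphisms and based maps of orthogonal spectra as morphisms of continuous functors
-/

set_option autoImplicit false
set_option linter.all false

open CategoryTheory MonoidalCategory Topology OnePoint Matrix

namespace Vale.Agent.P251CE

open Vale.Agent.P251.H Vale.Agent.P251CA Vale.Agent.P251CA.CF Vale.Agent.P251CA.Sp0
open Vale.Agent.P251C Vale.Agent.P251.St
open Vale.Agent.P251CJ (eh)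
open Vale.Agent.P251.G (LC)

/-- The points of a functor from orthogonal spectra to continuous functors. -/
structure QD (Q : OSp ⥤ CF) where
  /-- the levels -/
  e : ∀ (X : OSp) (n : ℕ), X.sp n ≃ OnePoint ((Q.obj X).obj (euc n))
  e_pt : ∀ (X : OSp) (n : ℕ), e X n (X.pt n) = ∞
  plot : ∀ (X : OSp) (n : ℕ) (K : CH) (g : K → X.sp n),
    ((Q.obj X).obj (euc n)).plot K (fun k => e X n (g k)) ↔ Continuous g
  act : ∀ (X : OSp) {m n : ℕ} (f : OnePoint (Emb m n)) (x : X.sp m),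
    (Q.obj X).act (eh f) (e X m x) = e X n (X.act f x)
  map : ∀ {X Y : OSp} (f : X ⟶ Y) (n : ℕ) (x : X.sp n), fn (Q.map f) (e X n x) = e Y n (f.app n x)

/-- the points of the functor `q` -/
noncomputable def qd : QD P251CI.q where
  e X n := ⟨P251CI.up (euc n), P251CI.dn (a := euc n), P251CI.dn_up (euc n), P251CI.up_dn⟩
  e_pt X n := P251CI.up_pt (euc n)
  plot X n K g := P251CI.q_plot_iff.trans (iff_of_eq (congrArg Continuous
    (funext fun k => P251CI.dn_up (euc n) (g k))))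
  act X _ _ f x := P251CI.act_eh_up f x
  map f n x := P251CI.fn_up f (euc n) x

theorem eh_cases {m n : ℕ} (w : euc m ⟶ euc n) :
    w = 0 ∨ ∃ f : Emb m n, eh (OnePoint.some f) = w := P251CJ.Ch.zero_or _ _ w

theorem app_eh {m n : ℕ} (f : Emb m n) (s : Fin m → ℝ) :
    LC.app (eh (OnePoint.some f)).hom (vc s) = vc (ap f s) := rfl

theorem blk_eh {m n m' n' : ℕ} {f : Emb m m'} {g : Emb n n'} {h : Emb (m + n) (m' + n')}
    (hh : ∀ s t, ap h (Fin.append s t) = Fin.append (ap f s) (ap g t)) :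
    blk (eh (OnePoint.some f)) (eh (OnePoint.some g)) = eh (OnePoint.some h) :=
  blk_eq (app_eh f) (app_eh g) fun s t => (app_eh h _).trans (congrArg vc (hh s t))

theorem ex_inv {m n : ℕ} (g : (Fin m → ℝ) → Fin n → ℝ) (g' : (Fin n → ℝ) → Fin m → ℝ)
    (h : ∀ x y, g x ⬝ᵥ g y = x ⬝ᵥ y) (h' : ∀ x y, g' x ⬝ᵥ g' y = x ⬝ᵥ y)
    (hi : ∀ x, g' (g x) = x) : ∃ (e : Emb m n) (e' : Emb n m), (∀ x, ap e x = g x) ∧
      (∀ x, ap e' x = g' x) ∧ eh (OnePoint.some e) ≫ eh (OnePoint.some e') = 𝟙 _ := by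
  obtain ⟨e, he⟩ := P251CJ.exists_ap g 0 fun x y => (h x y).trans (add_zero _).symm
  obtain ⟨e', he'⟩ := P251CJ.exists_ap g' 0 fun x y => (h' x y).trans (add_zero _).symm
  exact ⟨e, e', he, he', app_ext fun x =>
    congrArg vc ((he' _).trans ((congrArg g' (he x)).trans (hi x)))⟩

theorem ex_swap (m n : ℕ) : ∃ (e : Emb (m + n) (n + m)),
    ∀ s t, ap e (Fin.append s t) = Fin.append t s := by
  obtain ⟨e, he⟩ := P251CJ.exists_ap (m := m + n) (n := n + m)
    (fun z => Fin.append (fun i => z (Fin.natAdd m i)) fun i => z (Fin.castAdd n i)) 0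
    fun x y => by
      obtain ⟨s, t, rfl⟩ := ex_append x
      obtain ⟨s', t', rfl⟩ := ex_append y
      simp only [Fin.append_left, Fin.append_right, append_dot, add_zero]
      exact add_comm _ _
  exact ⟨e, fun s t => (he _).trans (by simp only [Fin.append_left, Fin.append_right])⟩

theorem ex_assoc (l m n : ℕ) : ∃ (e : Emb (l + m + n) (l + (m + n))),
    ∀ r s t, ap e (Fin.append (Fin.append r s) t) = Fin.append r (Fin.append s t) := by
  obtain ⟨e, he⟩ := P251CJ.exists_ap (m := l + m + n) (n := l + (m + n))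
    (fun z => Fin.append (fun i => z (Fin.castAdd n (Fin.castAdd m i)))
      (Fin.append (fun i => z (Fin.castAdd n (Fin.natAdd l i))) fun i => z (Fin.natAdd _ i))) 0
    fun x y => by
      obtain ⟨s, t, rfl⟩ := ex_append x
      obtain ⟨s', t', rfl⟩ := ex_append y
      obtain ⟨r, s, rfl⟩ := ex_append s
      obtain ⟨r', s', rfl⟩ := ex_append s'
      simp only [Fin.append_left, Fin.append_right, append_dot, add_zero]
      exact (add_assoc _ _ _).symm
  exact ⟨e, fun r s t => (he _).trans (by simp only [Fin.append_left, Fin.append_right])⟩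

theorem ex_assoc' (l m n : ℕ) : ∃ (e : Emb (l + (m + n)) (l + m + n)),
    ∀ r s t, ap e (Fin.append r (Fin.append s t)) = Fin.append (Fin.append r s) t := by
  obtain ⟨e, he⟩ := P251CJ.exists_ap (m := l + (m + n)) (n := l + m + n)
    (fun z => Fin.append (Fin.append (fun i => z (Fin.castAdd _ i))
      fun i => z (Fin.natAdd l (Fin.castAdd n i))) fun i => z (Fin.natAdd l (Fin.natAdd m i))) 0
    fun x y => by
      obtain ⟨r, t, rfl⟩ := ex_append x
      obtain ⟨r', t', rfl⟩ := ex_append y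
      obtain ⟨s, t, rfl⟩ := ex_append t
      obtain ⟨s', t', rfl⟩ := ex_append t'
      simp only [Fin.append_left, Fin.append_right, append_dot, add_zero]
      exact add_assoc _ _ _
  exact ⟨e, fun r s t => (he _).trans (by simp only [Fin.append_left, Fin.append_right])⟩

theorem jm_eu {K : LC} (k : OnePoint K) :
    (jC.obj K).act eu.hom (jm k pu) = jm k (vc v0) := by rw [jC_act, app_eu]

theorem j_ext {K : LC} {A : CF} {f g : jC.obj K ⟶ A}
    (h : ∀ k : OnePoint K, fn f (jm k (vc v0)) = fn g (jm k (vc v0))) : f = g :=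
  F_hom_ext (A := PQ.LCPQ.obj K) fun k : OnePoint K => by
    have e : jm k pu = (jC.obj K).act eu.inv (jm k (vc v0)) := by rw [← jm_eu, act_hom_inv]
    change fn f (jm k pu) = fn g (jm k pu)
    rw [e, fn_act, fn_act, h]

namespace QD

variable {Q : OSp ⥤ CF} (d : QD Q) {X Y Z X' Y' Z' P R W : OSp}

theorem plot' {n : ℕ} {K : CH} {x : K → OnePoint ((Q.obj X).obj (euc n))} :
    ((Q.obj X).obj (euc n)).plot K x ↔ Continuous fun k => (d.e X n).symm (x k) := by
  rw [← d.plot]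
  simp only [Equiv.apply_symm_apply]

theorem symm_infty (n : ℕ) : (d.e X n).symm ∞ = X.pt n := by
  rw [← d.e_pt, Equiv.symm_apply_apply]

/-- the bilinear map of a bimorphism -/
def eb (b : Bim X Y Z) : EB (Q.obj X) (Q.obj Y) (Q.obj Z) where
  f x y := d.e Z _ (b.ev ((d.e X _).symm x) ((d.e Y _).symm y))
  left y := by rw [d.symm_infty, b.pt_left, d.e_pt]
  right x := by rw [d.symm_infty, b.pt_right, d.e_pt]
  nat {m n m' n'} u v x y := by
    obtain ⟨x, rfl⟩ := (d.e X m).surjective x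
    obtain ⟨y, rfl⟩ := (d.e Y n).surjective y
    rcases eh_cases u with rfl | ⟨f, rfl⟩
    · rw [act_zero, blk_zero_left, act_zero, d.symm_infty, b.pt_left, d.e_pt]
    rcases eh_cases v with rfl | ⟨g, rfl⟩
    · rw [act_zero, blk_zero_right, act_zero, d.symm_infty, b.pt_right, d.e_pt]
    obtain ⟨h, hh⟩ := P251CJ.exists_ap_sum f g
    rw [blk_eh hh, d.act, d.act, d.act]
    simp only [Equiv.symm_apply_apply]
    rw [b.nat _ _ _ _ f g h hh]
  plot {m n K x y} hx hy :=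
    (d.plot _ _ _ _).2 (b.cont m n K ⟨_, d.plot'.1 hx⟩ ⟨_, d.plot'.1 hy⟩)

/-- the bimorphism of a morphism -/
noncomputable def bim (g : Q.obj X ⊗ Q.obj Y ⟶ Q.obj Z) : Bim X Y Z where
  ev x y := (d.e Z _).symm (fn g (em (d.e X _ x) (d.e Y _ y)))
  cont m n K _ _ _ x y := d.plot'.1 (fn_plot g (em_plot (K := CH.of K)
    ((d.plot _ _ _ _).2 x.continuous) ((d.plot _ _ _ _).2 y.continuous)))
  pt_left m n y := by rw [d.e_pt, em_infty_left, fn_infty, d.symm_infty]
  pt_right m n x := by rw [d.e_pt, em_infty_right, fn_infty, d.symm_infty]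
  nat m n m' n' f g' h hh x y := by
    rw [← d.act, ← d.act, ← act_em, blk_eh hh, fn_act, Equiv.symm_apply_eq, ← d.act,
      Equiv.apply_symm_apply]

theorem bim_ext {b c : Bim X Y Z}
    (h : ∀ m n (x : X.sp m) (y : Y.sp n), b.ev x y = c.ev x y) : b = c := by
  obtain ⟨f, _, _, _, _⟩ := b
  obtain ⟨g, _, _, _, _⟩ := c
  obtain rfl : @f = @g := by
    funext m n x y
    exact h m n x y
  rfl

theorem fn_eb (b : Bim X Y Z) {m n : ℕ} (x : X.sp m) (y : Y.sp n) :
    fn (d.eb b).desc (em (d.e X m x) (d.e Y n y)) = d.e Z _ (b.ev x y) := by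
  rw [EB.fn_desc]
  change d.e Z _ (b.ev ((d.e X _).symm _) ((d.e Y _).symm _)) = _
  rw [Equiv.symm_apply_apply, Equiv.symm_apply_apply]

theorem ext₂ {A : CF} {f g : Q.obj X ⊗ Q.obj Y ⟶ A}
    (h : ∀ m n (x : X.sp m) (y : Y.sp n),
      fn f (em (d.e X m x) (d.e Y n y)) = fn g (em (d.e X m x) (d.e Y n y))) : f = g :=
  em_ext fun m n x y => by
    obtain ⟨x, rfl⟩ := (d.e X m).surjective x
    obtain ⟨y, rfl⟩ := (d.e Y n).surjective y
    exact h m n x y

/-- bimorphisms are morphisms out of the tensor product -/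
noncomputable def cb : Bim X Y Z ≃ (Q.obj X ⊗ Q.obj Y ⟶ Q.obj Z) where
  toFun b := (d.eb b).desc
  invFun := d.bim
  left_inv b := bim_ext fun m n x y => by
    change (d.e Z _).symm _ = _
    rw [d.fn_eb, Equiv.symm_apply_apply]
  right_inv g := d.ext₂ fun m n x y => by
    rw [d.fn_eb]
    exact Equiv.apply_symm_apply _ _

theorem fn_cb (b : Bim X Y Z) {m n : ℕ} (x : X.sp m) (y : Y.sp n) :
    fn (d.cb b) (em (d.e X m x) (d.e Y n y)) = d.e Z _ (b.ev x y) := d.fn_eb b x y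

theorem cb_nat (b : Bim X Y Z) (b' : Bim X' Y' Z') (f : X ⟶ X') (g : Y ⟶ Y') (h : Z ⟶ Z') :
    (∀ m n (x : X.sp m) (y : Y.sp n), h.app _ (b.ev x y) = b'.ev (f.app m x) (g.app n y)) ↔
      d.cb b ≫ Q.map h = (Q.map f ⊗ₘ Q.map g) ≫ d.cb b' := by
  have e : ∀ m n (x : X.sp m) (y : Y.sp n),
      fn (d.cb b ≫ Q.map h) (em (d.e X m x) (d.e Y n y)) =
        fn ((Q.map f ⊗ₘ Q.map g) ≫ d.cb b') (em (d.e X m x) (d.e Y n y)) ↔
      h.app _ (b.ev x y) = b'.ev (f.app m x) (g.app n y) := fun m n x y => by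
    rw [fn_comp, fn_comp, tensorHom_em, d.map, d.map, d.fn_cb, d.fn_cb, d.map,
      Equiv.apply_eq_iff_eq]
  exact ⟨fun H => d.ext₂ fun m n x y => (e m n x y).2 (H m n x y),
    fun H m n x y => (e m n x y).1 (by rw [H])⟩

theorem cb_assoc (a : Bim X Y P) (b : Bim P Z W) (c : Bim Y Z R) (b' : Bim X R W)
    (h : ∀ l m n (e : Emb (l + m + n) (l + (m + n))), (∀ r s t,
      ap e (Fin.append (Fin.append r s) t) = Fin.append r (Fin.append s t)) →
      ∀ x y z, W.act (.some e) (b.ev (a.ev x y) z) = b'.ev x (c.ev y z)) :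
    d.cb a ▷ Q.obj Z ≫ d.cb b = (α_ _ _ _).hom ≫ Q.obj X ◁ d.cb c ≫ d.cb b' := by
  refine em_ext₃ fun l m n x y z => ?_
  obtain ⟨x, rfl⟩ := (d.e X l).surjective x
  obtain ⟨y, rfl⟩ := (d.e Y m).surjective y
  obtain ⟨z, rfl⟩ := (d.e Z n).surjective z
  obtain ⟨e, he⟩ := ex_assoc l m n
  obtain ⟨e', he'⟩ := ex_assoc' l m n
  obtain ⟨i, hi⟩ := P251CJ.exists_ap_id (l + m + n)
  rw [fn_comp, fn_comp, fn_comp, whiskerRight_em, d.fn_cb, d.fn_cb,
    associator_em (eh (OnePoint.some e')) fun r s t => (app_eh _ _).trans (congrArg vc (he' r s t)),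
    fn_act, fn_act, whiskerLeft_em, d.fn_cb, d.fn_cb, d.act, ← h l m n e he,
    ← W.act_comp _ _ _ e e' i, W.act_id _ i hi]
  intro s
  obtain ⟨s, t, rfl⟩ := ex_append s
  obtain ⟨r, s, rfl⟩ := ex_append s
  rw [he, he']
  exact hi _

theorem cb_comm (b : Bim X Y Z) (c : Bim Y X Z)
    (h : ∀ m n (e : Emb (m + n) (n + m)), (∀ s t, ap e (Fin.append s t) = Fin.append t s) →
      ∀ x y, Z.act (.some e) (b.ev x y) = c.ev y x) : d.cb b = (β_ _ _).hom ≫ d.cb c := by
  refine d.ext₂ fun m n x y => ?_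
  obtain ⟨e, he⟩ := ex_swap m n
  obtain ⟨e', he'⟩ := ex_swap n m
  obtain ⟨i, hi⟩ := P251CJ.exists_ap_id (m + n)
  rw [fn_comp, d.fn_cb,
    braiding_em (eh (OnePoint.some e')) fun s t => (app_eh _ _).trans (congrArg vc (he' t s)),
    fn_act, d.fn_cb, d.act, ← h m n e he, ← Z.act_comp _ _ _ e e' i, Z.act_id _ i hi]
  intro s
  obtain ⟨s, t, rfl⟩ := ex_append s
  rw [he, he']
  exact hi _

variable {K K' : Space}

/-- the morphism of a based map -/
noncomputable def cpTo (u : Pm K X 0) : jC.obj (toLC K) ⟶ Q.obj X :=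
  Fyo (A := PQ.LCPQ.obj (toLC K))
    ⟨fun k => (Q.obj X).act eu.inv (d.e X 0 (u.1 k)), by
      change (Q.obj X).act eu.inv (d.e X 0 (u.1 ∞)) = ∞
      rw [u.2, d.e_pt, act_infty],
    fun L k hk => act_plot' _ _ ((d.plot _ _ _ _).2 (u.1.continuous.comp hk))⟩

theorem fn_cpTo (u : Pm K X 0) (k : K.Pt) :
    fn (d.cpTo u) (jm (K := toLC K) k (vc v0)) = d.e X 0 (u.1 k) := by
  rw [← jm_eu, fn_act]
  exact (congrArg _ (fn_Fyo_pu _ _)).trans (act_inv_hom _ _ _)

/-- based maps are morphisms out of the suspension spectrum -/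
noncomputable def cp : Pm K X 0 ≃ (jC.obj (toLC K) ⟶ Q.obj X) where
  toFun := d.cpTo
  invFun g := ⟨⟨fun k => (d.e X 0).symm (fn g (jm (K := toLC K) k (vc v0))),
      d.plot'.1 (fn_plot g (fm_plot (A := PQ.LCPQ.obj (toLC K)) (K := CH.of K.Pt)
        continuous_id continuous_const))⟩, by
    change (d.e X 0).symm (fn g (jm (K := toLC K) ∞ (vc v0))) = _
    rw [jm_infty_left, fn_infty, d.symm_infty]⟩
  left_inv u := Subtype.ext (ContinuousMap.ext fun k => by
    change (d.e X 0).symm _ = _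
    rw [d.fn_cpTo, Equiv.symm_apply_apply])
  right_inv g := j_ext fun k => (d.fn_cpTo _ k).trans (Equiv.apply_symm_apply _ _)

theorem fn_cp (u : Pm K X 0) (k : K.Pt) :
    fn (d.cp u) (jm (K := toLC K) k (vc v0)) = d.e X 0 (u.1 k) := d.fn_cpTo u k

theorem cp_nat (u : Pm K X 0) (u' : Pm K' X' 0) (a : Map K K') (f : X ⟶ X') :
    (∀ k, u'.1 (a.toFun k) = f.app 0 (u.1 k)) ↔
      jC.map (toHom a) ≫ d.cp u' = d.cp u ≫ Q.map f := by
  have e : ∀ k : K.Pt, fn (jC.map (toHom a) ≫ d.cp u') (jm (K := toLC K) k (vc v0)) =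
      fn (d.cp u ≫ Q.map f) (jm (K := toLC K) k (vc v0)) ↔
      u'.1 (a.toFun k) = f.app 0 (u.1 k) := fun k => by
    rw [fn_comp, fn_comp, fn_jC_map, d.fn_cp, d.fn_cp, d.map, Equiv.apply_eq_iff_eq]
    rfl
  exact ⟨fun H => j_ext fun k => (e k).2 (H k), fun H k => (e k).1 (by rw [H])⟩

theorem cb_pt (b : Bim X Y Z) (u : Pm K Y 0) (t : K.carrier) (g : X ⟶ Z) :
    (∀ n (x : X.sp n), g.app n x = b.ev x (u.1 (.some t))) ↔
      Q.map g = (ρ_ (Q.obj X)).inv ≫ Q.obj X ◁ ((Functor.LaxMonoidal.ε jC ≫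
        jC.map (LC.point (X := toLC K) t)) ≫ d.cp u) ≫ d.cb b := by
  have e : ∀ n (x : X.sp n), fn (Q.map g) (d.e X n x) =
      fn ((ρ_ (Q.obj X)).inv ≫ Q.obj X ◁ ((Functor.LaxMonoidal.ε jC ≫
        jC.map (LC.point (X := toLC K) t)) ≫ d.cp u) ≫ d.cb b) (d.e X n x) ↔
      g.app n x = b.ev x (u.1 (.some t)) := fun n x => by
    have e1 : fn ((Functor.LaxMonoidal.ε jC ≫ jC.map (LC.point (X := toLC K) t)) ≫ d.cp u)
        (sp (vc v0)) = d.e Y 0 (u.1 (.some t)) := by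
      rw [fn_comp, fn_comp, ε_sp, fn_jC_map]
      exact d.fn_cp u _
    rw [fn_comp, fn_comp, rightUnitor_inv_em, d.map]
    erw [whiskerLeft_em, e1, d.fn_cb]
    exact Equiv.apply_eq_iff_eq _
  refine ⟨fun H => euc_ext fun n x => ?_, fun H n x => (e n x).1 (by rw [← H])⟩
  obtain ⟨x, rfl⟩ := (d.e X n).surjective x
  exact (e n x).2 (H n x)

theorem cb_mul (u : Pm K X 0) (v : Pm K' Y 0) (w : Pm (K.prod K') Z 0) (b : Bim X Y Z) :
    (∀ k k', w.1 (smash k k') = b.ev (u.1 k) (v.1 k')) ↔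
      Functor.LaxMonoidal.μ jC (toLC K) (toLC K') ≫ d.cp w = (d.cp u ⊗ₘ d.cp v) ≫ d.cb b := by
  have e : ∀ (k : K.Pt) (k' : K'.Pt),
      fn (Functor.LaxMonoidal.μ jC (toLC K) (toLC K') ≫ d.cp w)
        (em (jm (K := toLC K) k (vc v0)) (jm (K := toLC K') k' (vc v0))) =
      fn ((d.cp u ⊗ₘ d.cp v) ≫ d.cb b)
        (em (jm (K := toLC K) k (vc v0)) (jm (K := toLC K') k' (vc v0))) ↔
      w.1 (smash k k') = b.ev (u.1 k) (v.1 k') := fun k k' => by
    rw [fn_comp, fn_comp, μ_em, tensorHom_em, d.fn_cp, d.fn_cp, d.fn_cb,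
      show Fin.append v0 v0 = v0 from Subsingleton.elim (α := Fin 0 → ℝ) _ _]
    exact (d.fn_cp w (smash k k')).congr_left.trans (Equiv.apply_eq_iff_eq _)
  refine ⟨fun H => FF_ext (A := PQ.LCPQ.obj (toLC K)) (B := PQ.LCPQ.obj (toLC K'))
    fun (k : OnePoint (toLC K)) (k' : OnePoint (toLC K')) => ?_,
    fun H k k' => (e k k').1 (by rw [H])⟩
  have e1 : tm (jm (K := toLC K) k pu) (jm (K := toLC K') k' pu) =
      (jC.obj (toLC K) ⊗ jC.obj (toLC K')).act ((sm 0 0).inv ≫ (eu.inv ⊗ₘ eu.inv))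
        (em (jm (K := toLC K) k (vc v0)) (jm (K := toLC K') k' (vc v0))) := by
    rw [act_comp, ← tm_eq_em, act_tm, ← jm_eu, ← jm_eu, act_hom_inv, act_hom_inv]
  change fn _ (tm (jm (K := toLC K) k pu) (jm (K := toLC K') k' pu)) =
    fn _ (tm (jm (K := toLC K) k pu) (jm (K := toLC K') k' pu))
  rw [e1, fn_act, fn_act, (e k k').2 (H k k')]

end QD

end Vale.Agent.P251CE
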