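import Mathlib.CategoryTheory.Monoidal.Braided.Basic
import Mathlib.CategoryTheory.Adjunction.FullyFaithful
import Mathlib.CategoryTheory.HomCongr

/-!
# Maps out of tensor products in a monoidal reflective subcategory
-/

set_option autoImplicit false
set_option linter.all false

open CategoryTheory MonoidalCategory

namespace Vale.Agent.P251CE

open Functor.LaxMonoidal Functor.OplaxMonoidal Functor.Monoidal

universe v u u'

variable {C : Type u} [Category.{v} C] [MonoidalCategory C] [BraidedCategory C]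
  {D : Type u'} [Category.{v} D] [MonoidalCategory D] [BraidedCategory D]
  {r : C ⥤ D} {q : D ⥤ C} (adj : r ⊣ q) [r.Braided] [q.Full] [q.Faithful]

/-- the lax monoidal structure of the inclusion -/
noncomputable def mq (X Y : D) : q.obj X ⊗ q.obj Y ⟶ q.obj (X ⊗ Y) :=
  letI := adj.rightAdjointLaxMonoidal
  μ q X Y

theorem mq_def (X Y : D) : mq adj X Y =
    adj.homEquiv _ _ (δ r _ _ ≫ (adj.counit.app X ⊗ₘ adj.counit.app Y)) := rfl

include adj in
theorem pre_inj {A B : C} (f : A ⟶ B) [IsIso (r.map f)] {W : D} {g g' : B ⟶ q.obj W}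
    (h : f ≫ g = f ≫ g') : g = g' := by
  apply (adj.homEquiv _ _).symm.injective
  rw [← cancel_epi (r.map f), ← adj.homEquiv_naturality_left_symm,
    ← adj.homEquiv_naturality_left_symm, h]

instance (X Y : D) : IsIso (r.map (mq adj X Y)) := by
  have h : r.map (mq adj X Y) ≫ adj.counit.app (X ⊗ Y) =
      δ r _ _ ≫ (adj.counit.app X ⊗ₘ adj.counit.app Y) := by
    exact (adj.homEquiv_counit _ _ _).symm.trans (Equiv.symm_apply_apply _ _)
  have : IsIso (r.map (mq adj X Y) ≫ adj.counit.app (X ⊗ Y)) := by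
    rw [h]
    infer_instance
  exact IsIso.of_isIso_comp_right _ (adj.counit.app (X ⊗ Y))

/-- maps out of a tensor product -/
noncomputable def tq {X Y Z : D} : (X ⊗ Y ⟶ Z) ≃ (q.obj X ⊗ q.obj Y ⟶ q.obj Z) :=
  (Iso.homCongr (asIso (δ r (q.obj X) (q.obj Y) ≫
    (adj.counit.app X ⊗ₘ adj.counit.app Y))).symm (Iso.refl Z)).trans (adj.homEquiv _ _)

variable {X Y Z X' Y' Z' P Q W : D}

theorem tq_eq (g : X ⊗ Y ⟶ Z) : tq adj g = mq adj X Y ≫ q.map g := by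
  rw [mq_def, ← adj.homEquiv_naturality_right]
  exact congrArg (adj.homEquiv _ _) (congrArg (_ ≫ ·) (Category.comp_id g))

theorem tq_comp (g : X ⊗ Y ⟶ Z) (h : Z ⟶ Z') : tq adj (g ≫ h) = tq adj g ≫ q.map h := by
  rw [tq_eq, tq_eq, q.map_comp, Category.assoc]

theorem tq_pre (f : X ⟶ X') (g : Y ⟶ Y') (b : X' ⊗ Y' ⟶ Z) :
    tq adj ((f ⊗ₘ g) ≫ b) = (q.map f ⊗ₘ q.map g) ≫ tq adj b := by
  letI := adj.rightAdjointLaxMonoidal
  rw [tq_eq, tq_eq, q.map_comp]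
  exact (μ_natural_assoc q f g _).symm

theorem tq_left (g : Y ⟶ Y') (b : X ⊗ Y' ⟶ Z) :
    tq adj (X ◁ g ≫ b) = q.obj X ◁ q.map g ≫ tq adj b := by
  rw [← id_tensorHom, tq_pre, q.map_id, id_tensorHom]

theorem tq_right (f : X ⟶ X') (b : X' ⊗ Y ⟶ Z) :
    tq adj (f ▷ Y ≫ b) = q.map f ▷ q.obj Y ≫ tq adj b := by
  rw [← tensorHom_id, tq_pre, q.map_id, tensorHom_id]

theorem tq_assoc (a : X ⊗ Y ⟶ P) (b : P ⊗ Z ⟶ W) (c : Y ⊗ Z ⟶ Q) (d : X ⊗ Q ⟶ W)
    (h : tq adj a ▷ q.obj Z ≫ tq adj b = (α_ _ _ _).hom ≫ q.obj X ◁ tq adj c ≫ tq adj d) :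
    a ▷ Z ≫ b = (α_ _ _ _).hom ≫ X ◁ c ≫ d := by
  letI := adj.rightAdjointLaxMonoidal
  have : IsIso (r.map (mq adj X Y ▷ q.obj Z)) := by
    rw [Functor.Monoidal.map_whiskerRight]
    infer_instance
  apply (tq adj).injective
  refine pre_inj adj (mq adj X Y ▷ q.obj Z) ?_
  rw [tq_right, ← comp_whiskerRight_assoc, ← tq_eq, h, tq_eq adj (_ ≫ _), q.map_comp, tq_eq adj c,
    MonoidalCategory.whiskerLeft_comp_assoc, ← tq_left, tq_eq]
  exact (associativity_assoc q X Y Z _).symm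

theorem tq_comm (c : Y ⊗ X ⟶ Z) : tq adj ((β_ X Y).hom ≫ c) = (β_ _ _).hom ≫ tq adj c := by
  rw [tq_comp, tq_eq adj c, ← Category.assoc]
  congr 1
  rw [tq_eq, mq_def, mq_def, ← adj.homEquiv_naturality_right, ← adj.homEquiv_naturality_left,
    Category.assoc, Functor.map_braiding]
  refine congrArg (adj.homEquiv _ (Y ⊗ X)) ?_
  simp only [Category.assoc, μ_δ_assoc]
  exact congrArg (_ ≫ ·)
    (BraidedCategory.braiding_naturality (adj.counit.app X) (adj.counit.app Y))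

theorem tq_unit {A : C} (p : 𝟙_ C ⟶ A) (u : r.obj A ⟶ Y) (b : X ⊗ Y ⟶ Z) :
    q.map ((ρ_ X).inv ≫ X ◁ (ε r ≫ r.map p ≫ u) ≫ b) =
      (ρ_ (q.obj X)).inv ≫ q.obj X ◁ (p ≫ adj.homEquiv _ _ u) ≫ tq adj b := by
  letI := adj.rightAdjointLaxMonoidal
  have e : p ≫ adj.homEquiv _ _ u = ε q ≫ q.map (ε r ≫ r.map p ≫ u) := by
    rw [← adj.homEquiv_naturality_left]
    change _ = adj.homEquiv _ _ (η r) ≫ _
    rw [← adj.homEquiv_naturality_right, η_ε_assoc]
  rw [e, MonoidalCategory.whiskerLeft_comp_assoc (q.obj X), ← tq_left, tq_eq, q.map_comp]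
  exact (right_unitality_inv_assoc q X _).symm

theorem tq_mul {A B : C} (u : r.obj A ⟶ X) (v : r.obj B ⟶ Y) (b : X ⊗ Y ⟶ Z) :
    adj.homEquiv _ _ (δ r A B ≫ (u ⊗ₘ v) ≫ b) =
      (adj.homEquiv _ _ u ⊗ₘ adj.homEquiv _ _ v) ≫ tq adj b := by
  letI := adj.rightAdjointLaxMonoidal
  rw [adj.homEquiv_unit, adj.homEquiv_unit, adj.homEquiv_unit, ← tensorHom_comp_tensorHom_assoc,
    ← tq_pre, tq_eq, q.map_comp]
  exact adj.unit_app_tensor_comp_map_δ_assoc A B _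

end Vale.Agent.P251CE
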