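import Vale.Agent.P251CA.Base
import Vale.Agent.P251CA.Crd

/-!
# Bilinear maps of orthogonal spectra in Euclidean coordinates
-/

set_option autoImplicit false
set_option linter.all false

open CategoryTheory MonoidalCategory Topology OnePoint

namespace Vale.Agent.P251CE

open Vale.Agent.P251.H Vale.Agent.P251CA Vale.Agent.P251CA.CF Vale.Agent.P251CA.Sp0
open Vale.Agent.P251.G (LC)
open Vale.Agent.P251.G.LC (smash)

/-- the sum of Euclidean spaces -/
abbrev sm (m n : ℕ) : euc m ⊗ euc n ≅ euc (m + n) := toEuc (euc m ⊗ euc n)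

/-- a vector as a point of the sphere -/
abbrev vc {n : ℕ} (s : Fin n → ℝ) : OnePoint (euc n).s := OnePoint.some s

variable {X Y Z X' Y' W : CF} {l m n l' m' n' : ℕ}

theorem app_sm (s : Fin m → ℝ) (t : Fin n → ℝ) :
    LC.app (sm m n).hom.hom (smp (vc s) (vc t)) = vc (Fin.append s t) := rfl

theorem app_sm_inv (s : Fin m → ℝ) (t : Fin n → ℝ) :
    LC.app (sm m n).inv.hom (vc (Fin.append s t)) = smp (vc s) (vc t) := by
  rw [← app_sm, ← LC.app_comp, ← comp_hom, Iso.hom_inv_id, id_hom, LC.app_id]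

theorem ex_append (z : Fin (m + n) → ℝ) : ∃ s t, z = Fin.append s t :=
  ⟨_, _, (Fin.append_castAdd_natAdd (f := z)).symm⟩

theorem ext₂ {a : Sp0} {f g : euc (m + n) ⟶ a}
    (h : ∀ s t, LC.app f.hom (vc (Fin.append s t)) = LC.app g.hom (vc (Fin.append s t))) :
    f = g := app_ext fun z => by
  obtain ⟨s, t, rfl⟩ := ex_append (m := m) (n := n) z
  exact h s t

/-- the block sum -/
def blk (u : euc m ⟶ euc m') (v : euc n ⟶ euc n') : euc (m + n) ⟶ euc (m' + n') :=
  (sm m n).inv ≫ (u ⊗ₘ v) ≫ (sm m' n').hom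

theorem app_blk (u : euc m ⟶ euc m') (v : euc n ⟶ euc n') (s : Fin m → ℝ) (t : Fin n → ℝ) :
    LC.app (blk u v).hom (vc (Fin.append s t)) =
      LC.app (sm m' n').hom.hom (smp (LC.app u.hom (vc s)) (LC.app v.hom (vc t))) := by
  rw [blk, comp_hom, comp_hom, LC.app_comp, LC.app_comp, app_sm_inv, app_tensorHom_smp]

theorem blk_eq {u : euc m ⟶ euc m'} {v : euc n ⟶ euc n'} {w : euc (m + n) ⟶ euc (m' + n')}
    {f : (Fin m → ℝ) → Fin m' → ℝ} {g : (Fin n → ℝ) → Fin n' → ℝ}
    (hu : ∀ s, LC.app u.hom (vc s) = vc (f s)) (hv : ∀ t, LC.app v.hom (vc t) = vc (g t))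
    (hw : ∀ s t, LC.app w.hom (vc (Fin.append s t)) = vc (Fin.append (f s) (g t))) :
    blk u v = w := ext₂ fun s t => by rw [app_blk, hu, hv, hw, app_sm]

@[simp] theorem blk_zero_left (v : euc n ⟶ euc n') : blk (0 : euc m ⟶ euc m') v = 0 := by
  rw [blk, Sp0.zero_tensorHom, Limits.zero_comp, Limits.comp_zero]

@[simp] theorem blk_zero_right (u : euc m ⟶ euc m') : blk u (0 : euc n ⟶ euc n') = 0 := by
  rw [blk, Sp0.tensorHom_zero, Limits.zero_comp, Limits.comp_zero]

/-- the generators of the tensor product in coordinates -/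
noncomputable def em (x : OnePoint (X.obj (euc m))) (y : OnePoint (Y.obj (euc n))) :
    OnePoint ((X ⊗ Y).obj (euc (m + n))) := (X ⊗ Y).act (sm m n).hom (tm x y)

@[simp] theorem em_infty_left (y : OnePoint (Y.obj (euc n))) :
    em (∞ : OnePoint (X.obj (euc m))) y = ∞ := by rw [em, tm_infty_left, act_infty]

@[simp] theorem em_infty_right (x : OnePoint (X.obj (euc m))) :
    em x (∞ : OnePoint (Y.obj (euc n))) = ∞ := by rw [em, tm_infty_right, act_infty]

theorem tm_eq_em (x : OnePoint (X.obj (euc m))) (y : OnePoint (Y.obj (euc n))) :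
    tm x y = (X ⊗ Y).act (sm m n).inv (em x y) := (act_hom_inv _ _ _).symm

theorem act_em (u : euc m ⟶ euc m') (v : euc n ⟶ euc n') (x : OnePoint (X.obj (euc m)))
    (y : OnePoint (Y.obj (euc n))) :
    (X ⊗ Y).act (blk u v) (em x y) = em (X.act u x) (Y.act v y) := by
  rw [blk, act_comp, ← tm_eq_em, act_comp, act_tm, em]

theorem em_plot {K : CH} {x : K → OnePoint (X.obj (euc m))} {y : K → OnePoint (Y.obj (euc n))}
    (hx : (X.obj _).plot K x) (hy : (Y.obj _).plot K y) :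
    ((X ⊗ Y).obj (euc (m + n))).plot K fun k => em (x k) (y k) :=
  act_plot' _ _ (tm_plot hx hy)

theorem em_ext {f g : X ⊗ Y ⟶ Z}
    (h : ∀ (m n : ℕ) (x : OnePoint (X.obj (euc m))) (y : OnePoint (Y.obj (euc n))),
      fn f (em x y) = fn g (em x y)) : f = g := by
  apply tensor_ext
  intro a b x y
  rw [← act_hom_inv X (toEuc a) x, ← act_hom_inv Y (toEuc b) y, ← act_tm, tm_eq_em]
  simp only [fn_act, h]

theorem euc_ext {f g : X ⟶ Y}
    (h : ∀ (n : ℕ) (x : OnePoint (X.obj (euc n))), fn f x = fn g x) : f = g := by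
  apply CF.hom_ext
  intro a x
  rw [← act_hom_inv X (toEuc a) x]
  generalize X.act (toEuc a).hom x = y
  rw [fn_act, fn_act, h]

theorem em_ext₃ {f g : (X ⊗ Y) ⊗ Z ⟶ W}
    (h : ∀ (l m n : ℕ) (x : OnePoint (X.obj (euc l))) (y : OnePoint (Y.obj (euc m)))
      (z : OnePoint (Z.obj (euc n))), fn f (em (em x y) z) = fn g (em (em x y) z)) : f = g := by
  apply tensor_ext₃
  intro a b c x y z
  rw [← act_hom_inv X (toEuc a) x, ← act_hom_inv Y (toEuc b) y, ← act_hom_inv Z (toEuc c) z,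
    ← act_tm, tm_eq_em, ← act_comp, ← act_tm, tm_eq_em]
  simp only [fn_act, h]

theorem tensorHom_em (f : X ⟶ X') (g : Y ⟶ Y') (x : OnePoint (X.obj (euc m)))
    (y : OnePoint (Y.obj (euc n))) : fn (f ⊗ₘ g) (em x y) = em (fn f x) (fn g y) := by
  rw [em, fn_act, tensorHom_tm, em]

theorem whiskerLeft_em (g : Y ⟶ Y') (x : OnePoint (X.obj (euc m)))
    (y : OnePoint (Y.obj (euc n))) : fn (X ◁ g) (em x y) = em x (fn g y) := by
  rw [em, fn_act, whiskerLeft_tm, em]

theorem whiskerRight_em (f : X ⟶ X') (x : OnePoint (X.obj (euc m)))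
    (y : OnePoint (Y.obj (euc n))) : fn (f ▷ Y) (em x y) = em (fn f x) y := by
  rw [em, fn_act, whiskerRight_tm, em]

theorem associator_em (w : euc (l + (m + n)) ⟶ euc (l + m + n))
    (hw : ∀ r s t, LC.app w.hom (vc (Fin.append r (Fin.append s t))) =
      vc (Fin.append (Fin.append r s) t))
    (x : OnePoint (X.obj (euc l))) (y : OnePoint (Y.obj (euc m))) (z : OnePoint (Z.obj (euc n))) :
    fn (α_ X Y Z).hom (em (em x y) z) = (X ⊗ Y ⊗ Z).act w (em x (em y z)) := by
  have e : (α_ (euc l) (euc m) (euc n)).inv ≫ (sm l m).hom ▷ euc n ≫ (sm (l + m) n).hom =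
      euc l ◁ (sm m n).hom ≫ (sm l (m + n)).hom ≫ w :=
    app_ext fun p => (hw p.1 p.2.1 p.2.2).symm
  simp only [em]
  rw [← act_tm_left, ← act_tm_right, fn_act, fn_act, associator_tm, ← act_comp, ← act_comp,
    ← act_comp, ← act_comp, e]

theorem braiding_em (w : euc (n + m) ⟶ euc (m + n))
    (hw : ∀ s t, LC.app w.hom (vc (Fin.append t s)) = vc (Fin.append s t))
    (x : OnePoint (X.obj (euc m))) (y : OnePoint (Y.obj (euc n))) :
    fn (β_ X Y).hom (em x y) = (Y ⊗ X).act w (em y x) := by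
  have e : (β_ (euc n) (euc m)).hom ≫ (sm m n).hom = (sm n m).hom ≫ w :=
    app_ext fun p => (hw p.2 p.1).symm
  simp only [em]
  rw [fn_act, braiding_tm, ← act_comp, ← act_comp, e]

/-- Bilinear maps in coordinates. -/
structure EB (X Y Z : CF) where
  /-- the functions -/
  f : ∀ {m n : ℕ}, OnePoint (X.obj (euc m)) → OnePoint (Y.obj (euc n)) →
    OnePoint (Z.obj (euc (m + n)))
  left : ∀ {m n : ℕ} (y : OnePoint (Y.obj (euc n))), f (∞ : OnePoint (X.obj (euc m))) y = ∞
  right : ∀ {m n : ℕ} (x : OnePoint (X.obj (euc m))), f x (∞ : OnePoint (Y.obj (euc n))) = ∞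
  nat : ∀ {m n m' n' : ℕ} (u : euc m ⟶ euc m') (v : euc n ⟶ euc n')
    (x : OnePoint (X.obj (euc m))) (y : OnePoint (Y.obj (euc n))),
    f (X.act u x) (Y.act v y) = Z.act (blk u v) (f x y)
  plot : ∀ {m n : ℕ} {K : CH} {x : K → OnePoint (X.obj (euc m))}
    {y : K → OnePoint (Y.obj (euc n))}, (X.obj _).plot K x → (Y.obj _).plot K y →
      (Z.obj (euc (m + n))).plot K fun k => f (x k) (y k)

/-- the comparison of the two coordinates of a product -/
def cmp (a b : Sp0) : euc (dim a + dim b) ⟶ a ⊗ b :=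
  (sm (dim a) (dim b)).inv ≫ ((toEuc a).inv ⊗ₘ (toEuc b).inv)

/-- the bilinear map -/
def EB.bil (φ : EB X Y Z) : Bil X Y Z where
  toFun {a b} x y := Z.act (cmp a b) (φ.f (X.act (toEuc a).hom x) (Y.act (toEuc b).hom y))
  infty_left y := by rw [act_infty, φ.left, act_infty]
  infty_right x := by rw [act_infty, φ.right, act_infty]
  nat {a b a' b'} u v x y := by
    have e : ∀ {W : CF} {a a' : Sp0} (u : a ⟶ a') (x : OnePoint (W.obj a)),
        W.act (toEuc a').hom (W.act u x) =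
          W.act ((toEuc a).inv ≫ u ≫ (toEuc a').hom) (W.act (toEuc a).hom x) := fun u x => by
      rw [act_comp, act_hom_inv, act_comp]
    rw [e u, e v, φ.nat, ← act_comp, ← act_comp]
    congr 1
    simp only [blk, cmp, Category.assoc, Iso.hom_inv_id_assoc, tensorHom_comp_tensorHom,
      Iso.hom_inv_id, Category.comp_id]
  plot hx hy := act_plot' _ _ (φ.plot (act_plot' _ _ hx) (act_plot' _ _ hy))

/-- the morphism out of the tensor product -/
noncomputable def EB.desc (φ : EB X Y Z) : X ⊗ Y ⟶ Z := tensorDesc φ.bil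

theorem EB.fn_desc (φ : EB X Y Z) (x : OnePoint (X.obj (euc m))) (y : OnePoint (Y.obj (euc n))) :
    fn φ.desc (em x y) = φ.f x y := by
  rw [em, fn_act, EB.desc, tensorDesc_tm]
  change Z.act _ (Z.act (cmp (euc m) (euc n))
    (φ.f (X.act (toEuc (euc m)).hom x) (Y.act (toEuc (euc n)).hom y))) = _
  have e : cmp (euc m) (euc n) = (sm m n).inv := app_ext fun _ => rfl
  have e1 : X.act (toEuc (euc m)).hom x = x := by rw [toEuc_euc_hom]; exact act_id X x
  have e2 : Y.act (toEuc (euc n)).hom y = y := by rw [toEuc_euc_hom]; exact act_id Y y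
  rw [e, e1, e2]
  exact act_inv_hom Z (sm m n) _

/-- the unique vector of dimension zero -/
abbrev v0 : Fin 0 → ℝ := ![]

/-- the unit in coordinates -/
def eu : 𝟙_ Sp0 ≅ euc 0 := toEuc (𝟙_ Sp0)

theorem app_eu : LC.app eu.hom.hom pu = vc v0 := congrArg (vc (n := 0)) (Subsingleton.elim _ _)

theorem μ_em {K K' : LC} (k : OnePoint K) (k' : OnePoint K') (s : Fin m → ℝ) (t : Fin n → ℝ) :
    fn (Functor.LaxMonoidal.μ jC K K') (em (jm k (vc s)) (jm k' (vc t))) =
      jm (K := K ⊗ K') (smash k k') (vc (Fin.append s t)) := by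
  rw [em, fn_act, ← app_sm, ← jC_act]
  congr 1
  rw [Functor.LaxMonoidal.comp_μ, fn_comp]
  refine (congrArg (fn _) (fn_muHom (A := PQ.LCPQ.obj K) (B := PQ.LCPQ.obj K') k k' _ _)).trans ?_
  exact fn_F_map _ _ _

theorem ε_sp {a : Sp0} (x : OnePoint a.s) :
    fn (Functor.LaxMonoidal.ε jC) (sp x) = jm (K := 𝟙_ LC) ((() : Unit) : OnePoint Unit) x := by
  rw [Functor.LaxMonoidal.comp_ε, fn_comp]
  refine (congrArg (fn _) (fn_epsIso_hom x)).trans ?_
  exact fn_F_map _ _ _

theorem rightUnitor_inv_em (x : OnePoint (X.obj (euc m))) :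
    fn (ρ_ X).inv x = em (n := 0) x (sp (vc v0)) := by
  have e : euc m ◁ eu.hom ≫ (sm m 0).hom = (ρ_ (euc m)).hom :=
    app_ext fun p => congrArg vc (by
      funext i
      exact Fin.append_left p.1 _ i)
  rw [rightUnitor_inv_fn, em, ← e, act_comp, act_tm_right, ← app_eu]
  rfl

theorem leftUnitor_inv_em (w : euc (0 + m) ⟶ euc m)
    (hw : ∀ s, LC.app w.hom (vc (Fin.append v0 s)) = vc s) (x : OnePoint (X.obj (euc m))) :
    fn (λ_ X).inv x = (𝟙_ CF ⊗ X).act w (em (m := 0) (sp (vc v0)) x) := by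
  have e : eu.hom ▷ euc m ≫ (sm 0 m).hom ≫ w = (λ_ (euc m)).hom :=
    app_ext fun p => hw p.2
  rw [leftUnitor_inv_fn, em, ← e, act_comp, act_tm_left, act_comp, ← app_eu]
  rfl

end Vale.Agent.P251CE
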