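import Vale.Agent.P251CE.Dic
import Vale.Agent.P251CE.Lax

/-!
# Bimorphisms and based maps of orthogonal spectra in the reflective subcategory
-/

set_option autoImplicit false
set_option linter.all false

open CategoryTheory MonoidalCategory Topology OnePoint

namespace Vale.Agent.P251CE

open Vale.Agent.P251.H Vale.Agent.P251CA Vale.Agent.P251CA.CF
open Vale.Agent.P251C Vale.Agent.P251.St
open Vale.Agent.P251.G (LC)
open Functor.LaxMonoidal Functor.OplaxMonoidal Functor.Monoidal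

variable {M : Type 1} [Category.{0} M] [MonoidalCategory M] [BraidedCategory M]
  {r : CF ⥤ M} {q : M ⥤ CF} (adj : r ⊣ q) [r.Braided] [q.Full] [q.Faithful]
  {E : OSp ⥤ M} (d : QD (E ⋙ q)) {X Y Z X' Y' Z' P R W : OSp} {K K' : Space}

/-- bimorphisms are morphisms out of the tensor product -/
noncomputable def tb : Bim X Y Z ≃ (E.obj X ⊗ E.obj Y ⟶ E.obj Z) := d.cb.trans (tq adj).symm

theorem tq_tb (b : Bim X Y Z) : tq adj (tb adj d b) = d.cb b := Equiv.apply_symm_apply _ _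

/-- based maps are morphisms out of the suspension spectrum -/
noncomputable def tp : Pm K X 0 ≃ ((jC ⋙ r).obj (toLC K) ⟶ E.obj X) :=
  d.cp.trans (adj.homEquiv (jC.obj (toLC K)) (E.obj X)).symm

theorem he_tp (u : Pm K X 0) :
    adj.homEquiv (jC.obj (toLC K)) (E.obj X) (tp adj d u) = d.cp u := Equiv.apply_symm_apply _ _

theorem tb_nat (b : Bim X Y Z) (b' : Bim X' Y' Z') (f : X ⟶ X') (g : Y ⟶ Y') (h : Z ⟶ Z') :
    (∀ m n (x : X.sp m) (y : Y.sp n), h.app _ (b.ev x y) = b'.ev (f.app m x) (g.app n y)) ↔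
      tb adj d b ≫ E.map h = (E.map f ⊗ₘ E.map g) ≫ tb adj d b' := by
  rw [← (tq adj).apply_eq_iff_eq, tq_comp, tq_pre, tq_tb, tq_tb]
  exact d.cb_nat b b' f g h

theorem tb_assoc (a : Bim X Y P) (b : Bim P Z W) (c : Bim Y Z R) (b' : Bim X R W)
    (h : ∀ l m n (e : Emb (l + m + n) (l + (m + n))), (∀ r s t,
      ap e (Fin.append (Fin.append r s) t) = Fin.append r (Fin.append s t)) →
      ∀ x y z, W.act (.some e) (b.ev (a.ev x y) z) = b'.ev x (c.ev y z)) :
    tb adj d a ▷ E.obj Z ≫ tb adj d b =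
      (α_ _ _ _).hom ≫ E.obj X ◁ tb adj d c ≫ tb adj d b' := by
  refine tq_assoc adj _ _ _ _ ?_
  rw [tq_tb, tq_tb, tq_tb, tq_tb]
  exact d.cb_assoc a b c b' h

theorem tb_comm (b : Bim X Y Z) (c : Bim Y X Z)
    (h : ∀ m n (e : Emb (m + n) (n + m)), (∀ s t, ap e (Fin.append s t) = Fin.append t s) →
      ∀ x y, Z.act (.some e) (b.ev x y) = c.ev y x) :
    tb adj d b = (β_ _ _).hom ≫ tb adj d c := by
  apply (tq adj).injective
  rw [tq_comm, tq_tb, tq_tb]
  exact d.cb_comm b c h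

theorem tp_nat (u : Pm K X 0) (u' : Pm K' X' 0) (a : Map K K') (f : X ⟶ X') :
    (∀ k, u'.1 (a.toFun k) = f.app 0 (u.1 k)) ↔
      (jC ⋙ r).map (toHom a) ≫ tp adj d u' = tp adj d u ≫ E.map f := by
  refine (d.cp_nat u u' a f).trans (Iff.trans ?_
    (adj.homEquiv (jC.obj (toLC K)) (E.obj X')).apply_eq_iff_eq)
  have e1 : adj.homEquiv _ _ ((jC ⋙ r).map (toHom a) ≫ tp adj d u') = jC.map (toHom a) ≫ d.cp u' :=
    (adj.homEquiv_naturality_left _ _).trans (congrArg (_ ≫ ·) (he_tp adj d u'))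
  have e2 : adj.homEquiv _ _ (tp adj d u ≫ E.map f) = d.cp u ≫ (E ⋙ q).map f :=
    (adj.homEquiv_naturality_right _ _).trans (congrArg (· ≫ _) (he_tp adj d u))
  exact ⟨fun h => e1.trans (h.trans e2.symm), fun h => e1.symm.trans (h.trans e2)⟩

theorem tb_pt (b : Bim X Y Z) (u : Pm K Y 0) (t : K.carrier) (g : X ⟶ Z) :
    (∀ n (x : X.sp n), g.app n x = b.ev x (u.1 (.some t))) ↔
      E.map g = (ρ_ (E.obj X)).inv ≫ E.obj X ◁ (ε (jC ⋙ r) ≫
        (jC ⋙ r).map (LC.point (X := toLC K) t) ≫ tp adj d u) ≫ tb adj d b := by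
  have e := tq_unit adj (ε jC ≫ jC.map (LC.point (X := toLC K) t)) (tp adj d u) (tb adj d b)
  rw [he_tp, tq_tb, r.map_comp, Category.assoc, ← Category.assoc (ε r)] at e
  refine (d.cb_pt b u t g).trans ⟨fun h => q.map_injective (h.trans e.symm), fun h => ?_⟩
  exact (congrArg q.map h).trans e

theorem tb_unit (b : Bim X Y Z) (u : Pm Pn Y 0) (g : X ⟶ Z) :
    (∀ n (x : X.sp n), g.app n x = b.ev x (u.1 (.some ()))) ↔
      E.map g = (ρ_ (E.obj X)).inv ≫ E.obj X ◁ (ε (jC ⋙ r) ≫ tp adj d u) ≫ tb adj d b := by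
  have e : LC.point (X := toLC Pn) () = 𝟙 (toLC Pn) := LC.hom_ext fun _ => rfl
  have e1 : (jC ⋙ r).map (LC.point (X := toLC Pn) ()) ≫ tp adj d u = tp adj d u := by
    rw [e]
    exact (congrArg (· ≫ tp adj d u) ((jC ⋙ r).map_id (toLC Pn))).trans (Category.id_comp _)
  have := tb_pt adj d b u () g
  rwa [e1] at this

theorem tb_mul (u : Pm K X 0) (v : Pm K' Y 0) (w : Pm (K.prod K') Z 0) (b : Bim X Y Z) :
    (∀ k k', w.1 (smash k k') = b.ev (u.1 k) (v.1 k')) ↔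
      μ (jC ⋙ r) (toLC K) (toLC K') ≫ tp adj d w = (tp adj d u ⊗ₘ tp adj d v) ≫ tb adj d b := by
  have e := tq_mul adj (tp adj d u) (tp adj d v) (tb adj d b)
  rw [he_tp, he_tp, tq_tb] at e
  have e1 : adj.homEquiv _ _ (δ r (jC.obj (toLC K)) (jC.obj (toLC K')) ≫
      μ (jC ⋙ r) (toLC K) (toLC K') ≫ tp adj d w) = μ jC (toLC K) (toLC K') ≫ d.cp w := by
    rw [comp_μ, Category.assoc, δ_μ_assoc, adj.homEquiv_naturality_left]
    exact congrArg (_ ≫ ·) (he_tp adj d w)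
  refine (d.cb_mul u v w b).trans ⟨fun h => ?_, fun h => ?_⟩
  · rw [← cancel_epi (δ r (jC.obj (toLC K)) (jC.obj (toLC K')))]
    exact (adj.homEquiv _ _).injective (e1.trans (h.trans e.symm))
  · exact e1.symm.trans ((congrArg (fun z => adj.homEquiv _ _ (_ ≫ z)) h).trans e)

end Vale.Agent.P251CE
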