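import Vale.Agent.P251CE.Fld
import Vale.Agent.P251CZ.Br
import Vale.Agent.P251CV.R

/-!
# The bridge for orthogonal spectra
-/

set_option autoImplicit false
set_option linter.all false

open CategoryTheory MonoidalCategory

namespace Vale.Agent.P251CE

open Vale.Agent.P251C Vale.Agent.P251CR Vale.Agent.P251CM Vale.Agent.P251CZ

/-- orthogonal spectra with the structure of a stabilisation input -/
abbrev MM : Type 1 := RM P251CV.R

/-- the identity functor -/
def EE : OSp ⥤ MM := 𝟭 OSp

instance : EE.IsEquivalence := inferInstanceAs (𝟭 OSp).IsEquivalence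

theorem q_EE_map {X Y : OSp} (f : X ⟶ Y) : (RM.q P251CV.R).map (EE.map f) = P251CI.q.map f := rfl

/-- the points -/
noncomputable def qdE : QD (EE ⋙ RM.q P251CV.R) :=
  ⟨qd.e, qd.e_pt, qd.plot, qd.act, qd.map⟩

/-- **The bridge.** -/
noncomputable def br (hpi : ∀ {X Y : OSp} (f : X ⟶ Y), piIso f ↔ WW MM (EE.map f)) : Br EE where
  tb := tb (RM.adj P251CV.R) qdE
  tp := tp (RM.adj P251CV.R) qdE
  tb_nat := tb_nat _ _
  tb_assoc := tb_assoc _ _
  tb_comm := tb_comm _ _
  tp_nat := tp_nat _ _
  tb_unit b u g := (tb_unit (RM.adj P251CV.R) qdE b u g).trans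
    (eq_comm.trans (Iso.inv_comp_eq _))
  pi := hpi

end Vale.Agent.P251CE
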