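import Vale.Agent.P251CE.Main
import Vale.Agent.P251CP.Pi
import Vale.Agent.P251CZ.Glue
import Vale.Agent.P251CM.All

/-!
# The stable homotopy category of orthogonal spectra exists
-/

set_option autoImplicit false
set_option linter.all false

namespace Vale.Agent.P251CE

open Vale.Agent.P251 Vale.Agent.P251C

theorem exists_isSH : ∃ (T : St.SHCat) (S : St.Susp T), Nonempty (IsSH T S) := by
  obtain ⟨T, S, ⟨G⟩⟩ := P251CM.nonempty_genSH MM
  exact ⟨T, S, ⟨P251CZ.isSH (br fun f => P251CP.pi (EE.map f)) G⟩⟩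

end Vale.Agent.P251CE
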